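import Vale.Agent.P235.K5.SX.Defs
import Vale.Agent.P235.K5.SX.H803.Refine
import Vale.Agent.P235.K5.SX.H23.Elim

set_option autoImplicit false

/-! # Line SX, row [S5] in the literal of K5/SX/Defs: helper23's `elim` into helper803's `refine`
(helper655) -/

namespace Vale.Agent.P235.K5.SX.H655

open SimpleGraph Vale.Agent.P235 Vale.Agent.P235.K5

/-- **[S5]** -/
theorem s5 : SX.S5Stmt := by
  intro w V _ H n B T h hT
  obtain ⟨H', m, C, φ, h1, _, h3, h4, h5, h6, h7, h8, h9⟩ :=
    SX.H803.refine (fun W _ _ G w R => SX.H23.elim W G w R) T h hT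
  have key : ∀ s, s < m → φ (min s (m - 1)) = φ s := by
    intro s hs
    have : min s (m - 1) = s := by omega
    rw [this]
  refine ⟨H', m, C, fun s => φ (min s (m - 1)), h1, h3, ?_, ?_, h6, ?_, ?_, ?_, ?_⟩
  · intro s s' hss
    show φ (min s (m - 1)) ≤ φ (min s' (m - 1))
    rcases Nat.eq_zero_or_pos m with hm | hm
    · have e1 : min s (m - 1) = 0 := by omega
      have e2 : min s' (m - 1) = 0 := by omega
      rw [e1, e2]
    · exact h5 _ _ (by omega) (by omega)
  · intro s hs
    show φ (min s (m - 1)) < n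
    rw [key s hs]
    exact h4 s hs
  · intro s hs
    show C s ⊆ B (φ (min s (m - 1)))
    rw [key s hs]
    exact h7 s hs
  · intro s hs hns
    have hns' : ¬ T (φ s) := by
      rw [← key s hs]
      exact hns
    show C s = B (φ (min s (m - 1))) ∧ Adh C s = Adh B (φ (min s (m - 1)))
    rw [key s hs]
    rcases h8 s hs with ⟨_, g1, g2⟩ | ⟨g1, _⟩
    · exact ⟨g1, g2⟩
    · exact absurd g1 hns'
  · intro s hs hts
    have hts' : T (φ s) := by
      rw [← key s hs]
      exact hts
    rcases h8 s hs with ⟨g1, _, _⟩ | ⟨_, v, g1, g2⟩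
    · exact absurd hts' g1
    · exact ⟨v, fun hv => g1 hv.2, g2⟩
  · intro t ht v hv
    obtain ⟨s, hs, g1, g2⟩ := h9 t ht v hv
    refine ⟨s, hs, ?_, g2⟩
    show φ (min s (m - 1)) ≤ t
    rw [key s hs]
    exact g1

end Vale.Agent.P235.K5.SX.H655
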