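import Vale.Agent.P235.K5.SX.Asm
import Vale.Agent.P235.K5.SX.H696.S1
import Vale.Agent.P235.K5.SX.H378.S2Fin
import Vale.Agent.P235.K5.SX.H183.S3Lit
import Vale.Agent.P235.K5.SX.H452.N
import Vale.Agent.P235.K5.SX.H655.S5
import Vale.Agent.P235.K5.SX.H964.S6
import Vale.Agent.P235.K5.H500.Edge
import Vale.Agent.P235.K5.H803.Mix

set_option autoImplicit false
set_option linter.all false

/-!
# Line SX, the end (helper655): no hypothesis
-/

namespace Vale.Agent.P235.K5.SX.H655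

open SimpleGraph Vale.Agent.P235 Vale.Agent.P235.H134 Vale.Agent.P235.H56 Vale.Agent.P235.K5
open Vale.Agent.P235.H341W (capG)

/-- **LINE SX**, the form of `SX.fin`, no hypothesis -/
theorem sxPC (w : ℕ) (c : ℝ) (hc : 0 < c) (hc1 : c ≤ 1) :
    ∃ K : ℝ, 1 ≤ K ∧ ∀ (V : Type) [Finite V] (G H : SimpleGraph V), G ≤ H → G.Connected →
      SX.Sum3 w c H → DistortionLE G K :=
  SX.fin SX.H696.s1Stmt SX.H378.s2Stmt SX.H183.s3 SX.H452.n s5 SX.H964.s6 w c hc hc1

/-- pieces of bounded treewidth, and connected pieces with `EdgeIso D` which stay without `K_{3,3}`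
minor after adding a vertex joined to the root triangle (any connected piece with `EdgeIso D` if
there are at most two roots) -/
def Good (D : ℝ) (w : ℕ) (V : Type) (G : SimpleGraph V) (R : Set V) : Prop :=
  TreewidthLE G w ∨ (G.Connected ∧ EdgeIso G D ∧ (R.ncard = 3 → ¬ IsMinor K33 (capG G R)))

/-- pieces without `K_5` and `K_{3,3}` minor -/
def Planar (V : Type) (G : SimpleGraph V) : Prop :=
  ¬ IsMinor (⊤ : SimpleGraph (Fin 5)) G ∧ ¬ IsMinor K33 G

/-- **LINE SX, final form**: subgraphs of sums, over cliques with at most three vertices, of planar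
pieces (any roots), of pieces of treewidth at most `w` (any roots), and of `Good` pieces -/
theorem sx (w : ℕ) {D : ℝ} (hD : 1 ≤ D) :
    ∃ K : ℝ, 1 ≤ K ∧ ∀ (V : Type) [Finite V] (G H : SimpleGraph V), G ≤ H → G.Connected →
      CliqueSum 3 (fun V G R => Good D w V G R ∨ Planar V G) H → DistortionLE G K := by
  obtain ⟨c, hc0, hc1, hcap⟩ := H500.pc_cap
  have hD0 : 0 < D := by linarith
  set c' : ℝ := min c (1 / D) with hc'
  have h0 : 0 < c' := lt_min hc0 (by positivity)
  have h1 : c' ≤ 1 := (min_le_left _ _).trans hc1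
  obtain ⟨K, hK, h⟩ := sxPC w c' h0 h1
  refine ⟨K, hK, fun V _ G H hle hconn hS => h V G H hle hconn ?_⟩
  obtain ⟨n, B, hB, hp⟩ := K5.H803.cliqueSum_mix hS
  refine ⟨n, B, hB, fun t ht => ?_⟩
  rcases hp t ht with (h2 | ⟨h2, h3, h4⟩) | ⟨h2, h3⟩
  · exact Or.inl h2
  · exact Or.inr ⟨h2, (EdgeIso.edgeExact hD0 fun _ => h3).mono (min_le_right _ _), h4⟩
  · exact Or.inr ((hcap _ _ _ h2 h3).mono (min_le_left _ _))

/-- **LINE SX**: planar pieces and pieces of bounded treewidth -/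
theorem sx0 (w : ℕ) :
    ∃ K : ℝ, 1 ≤ K ∧ ∀ (V : Type) [Finite V] (G H : SimpleGraph V), G ≤ H → G.Connected →
      CliqueSum 3 (fun V G _ => TreewidthLE G w ∨ Planar V G) H → DistortionLE G K := by
  obtain ⟨K, hK, h⟩ := sx w (D := 1) le_rfl
  refine ⟨K, hK, fun V _ G H hle hconn hS => h V G H hle hconn ?_⟩
  obtain ⟨n, B, hB, hp⟩ := hS
  exact ⟨n, B, hB, fun t ht => (hp t ht).imp (fun h2 => Or.inl h2) id⟩

end Vale.Agent.P235.K5.SX.H655
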